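import Vale.Agent.P014.H687.Isog2
import Vale.Agent.P014.H687.Hasse
import Vale.Agent.P004.H26.FE17
import Vale.Agent.P017.H185.Crit

/-!
# P014 (B): interfaces of the proof of the `2`-part of the formula for twists of `17a2`

Every block is a `Prop`; it is proved in its own directory as `theorem xxx : XxxStmt`.
-/

open NumberField Complex MeasureTheory Set
open scoped Real Classical

namespace Vale.Agent.P014B

open Vale.Agent.P014 Vale.Agent.P014.H687 Vale.Agent.P017.H185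
open Vale.Agent.P014.H70 (r3 Th3 tr)
open Vale.Agent.P004H.H204 (qq)

/-! ### the twisted central values -/

/-- `∑ a(m) (m / n) exp (-2 π m y)`, the twist of the form of level `17` on the imaginary axis -/
noncomputable def FF (n : ℕ) (y : ℝ) : ℝ :=
  Vale.Agent.P004.H26.fD (an r3) (fun x => jacobiSym x n) y

/-- the central value of the twisted `L`-function -/
noncomputable def Lv (n : ℕ) : ℝ := 2 * π * ∫ y in Ioi (0 : ℝ), FF n y

/-- the normalised central value -/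
noncomputable def ell (n : ℕ) : ℝ := √(n : ℝ) * Lv n

/-- the number of units -/
def wn (n : ℕ) : ℕ := if n = 3 then 6 else 2

/-- the families: exactly one prime factor `3` modulo `4`, or exactly one prime factor inert in
`ℚ(√17)` -/
def Fam (n : ℕ) : Prop :=
  (n.primeFactors.filter fun p => p % 4 = 3).card = 1 ∨
    (n.primeFactors.filter fun p => jacobiSym p 17 = -1).card = 1

/-! ### block L and block G (periods) -/

/-- analytic facts on the twists -/
def LStmt : Prop := ∀ n : ℕ, Squarefree n → Odd n → ¬ 17 ∣ n →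
  IntegrableOn (FF n) (Ioi 0) ∧ (jacobiSym (-17) n = -1 → Lv n = 0) ∧
  ∀ k : ℤ, (4 * k + 1).natAbs = n →
    (∃ L, IsHasseWeil (tw k) L) ∧ ∀ L, IsHasseWeil (tw k) L → L 1 = Lv n

/-- the real period of the twist by `-1` of `y² = x (x - 1) (x - 17)`, both components -/
noncomputable def Om : ℝ :=
  ∫ t in {t : ℝ | t * (t - 1) * (t - 17) < 0}, 2 / √(-(t * (t - 1) * (t - 17)))

/-- the real period of a negative twist -/
def PeriodStmt : Prop := 0 < Om ∧
  ∀ (k : ℤ) (n : ℕ), 0 < n → 4 * k + 1 = -(n : ℤ) → realPeriod (tw k) = Om / √(n : ℝ)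

/-- the base value -/
def BaseStmt : Prop := ell 3 ≠ 0 → ∃ m : ℤ, Odd m ∧ ell 3 = m * (Om / 2)

/-! ### block F (descent) -/

/-- the algebraic side -/
def AlgStmt : Prop := ∀ (K : Type) [Field K] [NumberField K] (n : ℕ) (_ : QF K n) (k : ℤ),
  4 * k + 1 = -(n : ℤ) → jacobiSym n 17 = -1 → Fam n →
  (∀ c : ClassGroup (𝓞 K), orderOf c ≠ 4) →
    GlobalMinimal (tw k) ∧ Finite (tw k).toAffine.Point ∧
      Nat.card (shaPrimary (tw k) 2) = 1 ∧
      tamagawaProduct (tw k) = 2 * 4 ^ n.primeFactors.card ∧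
      padicValNat 2 (torsionOrder (tw k)) = 2

/-! ### blocks D, E (genus theory, Brandt matrices, induction) -/

/-- representatives of the ideal classes prime to `17 n` -/
structure Rep {K : Type} [Field K] [NumberField K] {n : ℕ} (q : QF K n) where
  X : ClassGroup (𝓞 K) → Ideal (𝓞 K)
  a : ClassGroup (𝓞 K) → ℕ
  ha : ∀ c, 0 < a c
  hX : ∀ c, q.HasN (X c) (a c)
  hcop : ∀ c, Nat.Coprime (a c) (17 * n)
  hcl : ∀ c, ∃ h : X c ∈ nonZeroDivisors (Ideal (𝓞 K)), ClassGroup.mk0 ⟨X c, h⟩ = c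

section

variable {K : Type} [Field K] [NumberField K] {n : ℕ} {q : QF K n}

/-- the genus character attached to the divisor `e` of `n` -/
noncomputable def Rep.chi (R : Rep q) (e : ℕ) (c : ClassGroup (𝓞 K)) : ℤ := jacobiSym (R.a c) e

/-- the binary theta series of an ideal of norm `a` -/
noncomputable def thB (q : QF K n) (X : Ideal (𝓞 K)) (a : ℕ) (z : ℂ) : ℂ :=
  ∑' x : X, cexp (2 * π * I * z * ((q.N x : ℝ) / a : ℝ))

/-- the Dirichlet convolution of two Jacobi symbols -/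
def conv (n₁ n₂ m : ℕ) : ℤ :=
  ∑ p ∈ m.divisorsAntidiagonal, jacobiSym p.1 n₁ * jacobiSym p.2 n₂

/-- the weight of a pair: the number of isotropic lines modulo `θ` through it -/
noncomputable def wt (q : QF K n) (a b : ℕ) (x y : 𝓞 K) : ℤ :=
  ∏ p ∈ n.primeFactors,
    ((if (p : ℤ) ∣ tr q x ∧ (p : ℤ) ∣ tr q y then 1 else 0) +
      jacobiSym (-(17 * a * b)) p *
        (if (p : ℤ) ∣ b * tr q x ^ 2 + 17 * a * tr q y ^ 2 then 1 else 0))

/-- the weighted quaternary theta series -/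
noncomputable def thW (q : QF K n) (X Y : Ideal (𝓞 K)) (a b : ℕ) (z : ℂ) : ℂ :=
  ∑' p : X × Y, (wt q a b p.1 p.2 : ℂ) *
    cexp (2 * π * I * z * ((((q.N p.1 : ℝ) / a + 17 * (q.N p.2 : ℝ) / b) / n : ℝ)))

/-- the identity of Brandt type for the function `φ` -/
def BrandtId (R : Rep q) (φ : ClassGroup (𝓞 K) → ℤ) : Prop :=
  ∀ e : ℕ, e ∣ n → ∀ z : ℂ, 0 < z.im →
    ∑ A, ∑ B, (R.chi e A : ℂ) * thW q (R.X A) (R.X B) (R.a A) (R.a B) z =
      ((∑ A, R.chi e A : ℤ) : ℂ) ^ 2 * ec z +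
        ((∑ A, R.chi e A * φ A : ℤ) : ℂ) ^ 2 * Fc Th3 z

end

/-- ideal counting with genus characters -/
def CountStmt : Prop := ∀ (K : Type) [Field K] [NumberField K] (n : ℕ) (q : QF K n) (R : Rep q),
  n % 4 = 3 → (∀ c, jacobiSym (R.a c) n = 1) ∧
    ∀ n₁ n₂ : ℕ, n₁ * n₂ = n → ∀ z : ℂ, 0 < z.im →
      HasSum (fun m : ℕ => ((if m = 0 then ∑ c, R.chi n₁ c else wn n * conv n₁ n₂ m : ℤ) : ℂ) *
        qq z ^ m) (∑ c, (R.chi n₁ c : ℂ) * thB q (R.X c) (R.a c) z)

/-- Gross points -/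
def BrandtStmt : Prop := ∀ (K : Type) [Field K] [NumberField K] (n : ℕ) (q : QF K n) (R : Rep q),
  n % 4 = 3 → jacobiSym n 17 = -1 →
    ∃ φ : ClassGroup (𝓞 K) → ℤ, (∀ c, φ c = 1 ∨ φ c = -3) ∧ BrandtId R φ

/-- **the formula of Gross and Waldspurger** for genus characters (blocks A, B, C) -/
def GrossStmt : Prop := ∃ κ : ℝ, κ ≠ 0 ∧
  ∀ (K : Type) [Field K] [NumberField K] (n : ℕ) (q : QF K n) (R : Rep q)
    (φ : ClassGroup (𝓞 K) → ℤ), n % 4 = 3 → jacobiSym n 17 = -1 → BrandtId R φ →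
      ∃ ε : ℝ, (ε = 1 ∨ ε = -1) ∧ ∀ n₁ n₂ : ℕ, n₁ * n₂ = n →
        ((∑ A, R.chi n₁ A * φ A : ℤ) : ℝ) ^ 2 = ε * κ * (wn n : ℝ) ^ 2 * (ell n₁ * ell n₂)

/-- the result of the `2`-adic induction -/
def IndStmt : Prop := ell 3 ≠ 0 ∧
  ∀ (K : Type) [Field K] [NumberField K] (n : ℕ) (_ : QF K n), n % 4 = 3 →
    jacobiSym n 17 = -1 → Fam n → (∀ c : ClassGroup (𝓞 K), orderOf c ≠ 4) →
      ∃ ρ : ℚ, ρ ≠ 0 ∧ padicValRat 2 ρ = 0 ∧
        ell n = ρ * 4 ^ (n.primeFactors.card - 1) * ell 3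

end Vale.Agent.P014B
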