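import Vale.Agent.P014B.Iface

/-!
# P014 (B): interfaces for the positive twists of `X₀(17)`
-/

namespace Vale.Agent.P014B

open Vale.Agent.P014

/-- the twist by `d = 4 k + 1` of `X₀(17) : y² + x y + y = x³ - x² - x - 14` -/
def x17 (k : ℤ) : WeierstrassCurve ℚ where
  a₁ := 1
  a₂ := -3 * k - 1
  a₃ := 1
  a₄ := -8 * k ^ 2 - 4 * k - 1
  a₆ := -880 * k ^ 3 - 660 * k ^ 2 - 165 * k - 14

theorem x17_eq (k : ℤ) : x17 k = H687.Isog.GW ℚ (-1) (-14) k := by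
  unfold x17 H687.Isog.GW
  ext <;> simp only [] <;> push_cast <;> ring

/-- the condition of Rédei: `d` has no decomposition of the second kind -/
def Red (d : ℕ) : Prop := ∀ d₁ d₂ : ℕ, d₁ * d₂ = d →
  (∀ p : ℕ, p.Prime → p ∣ d₂ → jacobiSym d₁ p = 1) →
  (∀ p : ℕ, p.Prime → p ∣ d₁ → jacobiSym d₂ p = 1) → d₁ = 1 ∨ d₂ = 1

/-- the second family -/
def Fam2 (d : ℕ) : Prop := Squarefree d ∧
  (∀ p : ℕ, p.Prime → p ∣ d → p % 4 = 1 ∧ jacobiSym p 17 = 1) ∧ Red d ∧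
  ∃ r s : ℤ, r ^ 2 + s ^ 2 = d ∧ jacobiSym (r + 4 * s) 17 = -1

/-- the analytic side -/
def Ind2Stmt : Prop := ell 1 ≠ 0 ∧ ∀ d : ℕ, Fam2 d →
  ∃ ρ : ℚ, ρ ≠ 0 ∧ padicValRat 2 ρ = 0 ∧ ell d = ρ * 4 ^ (d.primeFactors.card + 1) * ell 1

/-- periods and the base value -/
def Base2Stmt : Prop := 0 < realPeriod (x17 0) ∧
  (∀ (k : ℤ) (d : ℕ), 4 * k + 1 = d → realPeriod (x17 k) = realPeriod (x17 0) / √(d : ℝ)) ∧
  (ell 1 ≠ 0 → ∃ m : ℤ, Odd m ∧ ell 1 = m * (realPeriod (x17 0) / 4))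

/-- minimality and Tamagawa numbers -/
def Tam2Stmt : Prop := ∀ (k : ℤ) (d : ℕ), 4 * k + 1 = d → Fam2 d →
  GlobalMinimal (x17 k) ∧ tamagawaProduct (x17 k) = 4 * 4 ^ d.primeFactors.card

/-- the descent -/
def Sel2Stmt : Prop := ∀ (k : ℤ) (d : ℕ), 4 * k + 1 = d → Fam2 d →
  Finite (x17 k).toAffine.Point ∧ Nat.card (shaPrimary (x17 k) 2) = 1 ∧
    padicValNat 2 (torsionOrder (x17 k)) = 1

/-- the family is large -/
def NV2Stmt : Prop := ∀ t B : ℕ, 0 < t → ∃ d : ℕ, B < d ∧ Fam2 d ∧ d.primeFactors.card = t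

end Vale.Agent.P014B
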